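import Vale.Agent.P299.H104.Tools
import Mathlib.Algebra.Order.Chebyshev

/-!
# P299, D2-LOC1: the gradient estimate of Bernstein for finite systems
-/

open scoped ContDiff Topology
open Filter Metric Set

set_option maxSynthPendingDepth 3

noncomputable section

namespace Vale.Agent.P299.H104

/-! ## Inequalities for finite sums -/

lemma two_mul_le_eps {e : ℝ} (he : 0 < e) (x y : ℝ) : 2 * (x * y) ≤ e * x ^ 2 + y ^ 2 / e := by
  have h : 0 ≤ (e * x - y) ^ 2 / e := by positivity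
  have h2 : (e * x - y) ^ 2 / e = e * x ^ 2 + y ^ 2 / e - 2 * (x * y) := by
    field_simp; ring
  linarith

lemma sq_sum_le {J : Type} [Fintype J] {N : ℝ} (hN : (Fintype.card J : ℝ) ≤ N) (x : J → ℝ) :
    (∑ j, x j) ^ 2 ≤ N * ∑ j, x j ^ 2 := by
  have h := sq_sum_le_card_mul_sum_sq (s := (Finset.univ : Finset J)) (f := x)
  refine h.trans ?_
  rw [Finset.card_univ]
  exact mul_le_mul_of_nonneg_right hN (Finset.sum_nonneg fun _ _ => sq_nonneg _)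

variable {I J : Type} [Fintype I] [Fintype J]

lemma pt1 {lam A N : ℝ} (hlam : 0 < lam) (hA : 0 ≤ A) (hN1 : 0 < N)
    (hI : (Fintype.card I : ℝ) ≤ N) (hJ : (Fintype.card J : ℝ) ≤ N) (u : I → ℝ) (w : J → ℝ)
    (d t Lw : J → ℝ) (ht : ∀ j, lam * d j ^ 2 ≤ t j)
    (hL : ∀ j, |Lw j| ≤ A * (∑ m, d m + ∑ m, |w m| + ∑ i, |u i|)) :
    lam * ∑ j, d j ^ 2 - (A ^ 2 * N ^ 2 / lam + 3 * A * N) * (∑ j, w j ^ 2 + ∑ i, u i ^ 2) ≤
      ∑ j, (2 * (w j * Lw j) + 2 * t j) := by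
  set p := ∑ m, |w m| with hp
  set q := ∑ m, d m with hq
  set r := ∑ i, |u i| with hr
  have hp2 : p ^ 2 ≤ N * ∑ j, w j ^ 2 := by
    refine (sq_sum_le hJ _).trans_eq ?_
    simp only [sq_abs]
  have hq2 : q ^ 2 ≤ N * ∑ j, d j ^ 2 := sq_sum_le hJ _
  have hr2 : r ^ 2 ≤ N * ∑ i, u i ^ 2 := by
    refine (sq_sum_le hI _).trans_eq ?_
    simp only [sq_abs]
  have h1 : ∀ j, -(2 * (|w j| * (A * (q + p + r)))) + 2 * (lam * d j ^ 2) ≤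
      2 * (w j * Lw j) + 2 * t j := by
    intro j
    have h2 : |w j * Lw j| ≤ |w j| * (A * (q + p + r)) := by
      rw [abs_mul]; exact mul_le_mul_of_nonneg_left (hL j) (abs_nonneg _)
    have h3 := neg_abs_le (w j * Lw j)
    have h4 := ht j
    linarith
  have h5 : ∑ j, (-(2 * (|w j| * (A * (q + p + r)))) + 2 * (lam * d j ^ 2)) =
      -(2 * (p * (A * (q + p + r)))) + 2 * (lam * ∑ j, d j ^ 2) := by
    rw [Finset.sum_add_distrib, Finset.sum_neg_distrib, ← Finset.mul_sum, ← Finset.sum_mul,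
      ← Finset.mul_sum, ← Finset.mul_sum]
  refine le_trans ?_ (Finset.sum_le_sum fun j _ => h1 j)
  rw [h5]
  have h6 := two_mul_le_eps (e := lam / N) (by positivity) q (A * p)
  have h7 : lam / N * q ^ 2 ≤ lam * ∑ j, d j ^ 2 := by
    have := mul_le_mul_of_nonneg_left hq2 (by positivity : 0 ≤ lam / N)
    refine this.trans_eq ?_
    field_simp
  have h8 : (A * p) ^ 2 / (lam / N) ≤ A ^ 2 * N ^ 2 / lam * ∑ j, w j ^ 2 := by
    have := mul_le_mul_of_nonneg_left hp2 (by positivity : 0 ≤ A ^ 2 * N / lam)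
    calc (A * p) ^ 2 / (lam / N) = A ^ 2 * N / lam * p ^ 2 := by field_simp
      _ ≤ _ := this
      _ = _ := by field_simp
  have h9 : 2 * (p * r) ≤ p ^ 2 + r ^ 2 := by nlinarith [sq_nonneg (p - r)]
  have h10 : A * (2 * p ^ 2 + (p ^ 2 + r ^ 2)) ≤
      3 * A * N * (∑ j, w j ^ 2 + ∑ i, u i ^ 2) := by
    have h11 : 0 ≤ N * ∑ i, u i ^ 2 :=
      mul_nonneg hN1.le (Finset.sum_nonneg fun _ _ => sq_nonneg _)
    calc A * (2 * p ^ 2 + (p ^ 2 + r ^ 2)) ≤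
        A * (2 * (N * ∑ j, w j ^ 2) + (N * ∑ j, w j ^ 2 + N * ∑ i, u i ^ 2)) := by gcongr
      _ ≤ A * (3 * (N * ∑ j, w j ^ 2) + 3 * (N * ∑ i, u i ^ 2)) := by
          refine mul_le_mul_of_nonneg_left ?_ hA
          linarith
      _ = _ := by ring
  have h12 : A * (2 * (p * r)) ≤ A * (p ^ 2 + r ^ 2) := mul_le_mul_of_nonneg_left h9 hA
  have h13 : 0 ≤ A ^ 2 * N ^ 2 / lam * ∑ i, u i ^ 2 :=
    mul_nonneg (by positivity) (Finset.sum_nonneg fun _ _ => sq_nonneg _)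
  nlinarith

lemma pt2 {lam A N : ℝ} (hlam : 0 < lam) (hA : 0 ≤ A) (hN1 : 0 < N)
    (hI : (Fintype.card I : ℝ) ≤ N) (hJ : (Fintype.card J : ℝ) ≤ N) (u : I → ℝ) (w : J → ℝ)
    (d t Lu : I → ℝ) (ht : ∀ i, lam * d i ^ 2 ≤ t i)
    (hL : ∀ i, |Lu i| ≤ A * (∑ m, |w m| + ∑ i, |u i|)) (hw : ∀ j, |w j| ≤ A * ∑ i, d i) :
    lam * (1 / (N ^ 2 * A ^ 2 + 1)) * ∑ j, w j ^ 2 -
        (A ^ 2 * N ^ 2 / (lam * (1 / (N ^ 2 * A ^ 2 + 1))) + 2 * A * N) * ∑ i, u i ^ 2 ≤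
      ∑ i, (2 * (u i * Lu i) + 2 * t i) := by
  set p := ∑ m, |w m| with hp
  set q := ∑ m, d m with hq
  set r := ∑ i, |u i| with hr
  set W := ∑ j, w j ^ 2 with hW
  set V := ∑ i, u i ^ 2 with hV
  set D := ∑ i, d i ^ 2 with hD
  set κ : ℝ := 1 / (N ^ 2 * A ^ 2 + 1) with hκ
  have hκ0 : 0 < κ := by positivity
  have hp2 : p ^ 2 ≤ N * W := by
    refine (sq_sum_le hJ _).trans_eq ?_
    simp only [sq_abs, hW]
  have hq2 : q ^ 2 ≤ N * D := sq_sum_le hI _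
  have hr2 : r ^ 2 ≤ N * V := by
    refine (sq_sum_le hI _).trans_eq ?_
    simp only [sq_abs, hV]
  have hD0 : 0 ≤ D := Finset.sum_nonneg fun _ _ => sq_nonneg _
  have hV0 : 0 ≤ V := Finset.sum_nonneg fun _ _ => sq_nonneg _
  have hWD : κ * W ≤ D := by
    have h1 : W ≤ N * (A * q) ^ 2 := by
      calc W ≤ ∑ _j : J, (A * q) ^ 2 := by
            refine Finset.sum_le_sum fun j _ => ?_
            rw [← sq_abs]
            exact pow_le_pow_left₀ (abs_nonneg _) (hw j) 2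
        _ = (Fintype.card J : ℝ) * (A * q) ^ 2 := by
            rw [Finset.sum_const, Finset.card_univ, nsmul_eq_mul]
        _ ≤ _ := mul_le_mul_of_nonneg_right hJ (sq_nonneg _)
    have h2 : W ≤ N ^ 2 * A ^ 2 * D := by
      calc W ≤ N * (A * q) ^ 2 := h1
        _ = N * A ^ 2 * q ^ 2 := by ring
        _ ≤ N * A ^ 2 * (N * D) := mul_le_mul_of_nonneg_left hq2 (by positivity)
        _ = _ := by ring
    rw [hκ, div_mul_eq_mul_div, one_mul, div_le_iff₀ (by positivity)]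
    nlinarith
  have h1 : ∀ i, -(2 * (|u i| * (A * (p + r)))) + 2 * (lam * d i ^ 2) ≤
      2 * (u i * Lu i) + 2 * t i := by
    intro i
    have h2 : |u i * Lu i| ≤ |u i| * (A * (p + r)) := by
      rw [abs_mul]; exact mul_le_mul_of_nonneg_left (hL i) (abs_nonneg _)
    have h3 := neg_abs_le (u i * Lu i)
    have h4 := ht i
    linarith
  have h5 : ∑ i, (-(2 * (|u i| * (A * (p + r)))) + 2 * (lam * d i ^ 2)) =
      -(2 * (r * (A * (p + r)))) + 2 * (lam * D) := by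
    rw [Finset.sum_add_distrib, Finset.sum_neg_distrib, ← Finset.mul_sum, ← Finset.sum_mul,
      ← Finset.mul_sum, ← Finset.mul_sum]
  refine le_trans ?_ (Finset.sum_le_sum fun j _ => h1 j)
  rw [h5]
  have h6 := two_mul_le_eps (e := lam * κ / N) (by positivity) p (A * r)
  have h7 : lam * κ / N * p ^ 2 ≤ lam * κ * W := by
    have := mul_le_mul_of_nonneg_left hp2 (by positivity : 0 ≤ lam * κ / N)
    refine this.trans_eq ?_
    field_simp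
  have h8 : (A * r) ^ 2 / (lam * κ / N) ≤ A ^ 2 * N ^ 2 / (lam * κ) * V := by
    have := mul_le_mul_of_nonneg_left hr2 (by positivity : 0 ≤ A ^ 2 * N / (lam * κ))
    calc (A * r) ^ 2 / (lam * κ / N) = A ^ 2 * N / (lam * κ) * r ^ 2 := by field_simp
      _ ≤ _ := this
      _ = _ := by field_simp
  have h10 : A * (2 * r ^ 2) ≤ 2 * A * N * V := by
    calc A * (2 * r ^ 2) ≤ A * (2 * (N * V)) := by gcongr
      _ = _ := by ring
  have h11 : 2 * (lam * (κ * W)) ≤ 2 * (lam * D) := by gcongr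
  nlinarith

lemma pt3 {lam c η : ℝ} (hlam : 0 < lam) (w d : J → ℝ) :
    η * (c * ∑ j, |w j| * d j) ≤ lam * (η ^ 2 * ∑ j, d j ^ 2) +
      c ^ 2 / (4 * lam) * ∑ j, w j ^ 2 := by
  rw [Finset.mul_sum, Finset.mul_sum, Finset.mul_sum, Finset.mul_sum, Finset.mul_sum,
    ← Finset.sum_add_distrib]
  refine Finset.sum_le_sum fun j _ => ?_
  have h := two_mul_le_eps hlam (η * d j) (c / 2 * |w j|)
  have h2 : (c / 2 * |w j|) ^ 2 / lam = c ^ 2 / (4 * lam) * w j ^ 2 := by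
    rw [mul_pow, sq_abs]; field_simp; ring
  rw [h2] at h
  linarith

/-! ## The estimate -/

variable {E : Type} [NormedAddCommGroup E] [NormedSpace ℝ E] [FiniteDimensional ℝ E]

omit [FiniteDimensional ℝ E] in
/-- the cross term -/
lemma cross {η : E → ℝ} {z : E} (hη : ContDiffAt ℝ 2 η z) (hη0 : 0 ≤ η z) {w : J → E → ℝ}
    (hw : ∀ j, ContDiffAt ℝ 2 (w j) z) (a : (E →L[ℝ] E →L[ℝ] ℝ) →L[ℝ] ℝ) {Lam M : ℝ}
    (ha : ‖a‖ ≤ Lam) (hM : ‖fderiv ℝ η z‖ ≤ M) :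
    |Gam a (fderiv ℝ (fun y => η y ^ 2) z) (fderiv ℝ (fun y => ∑ j, w j y ^ 2) z)| ≤
      η z * (8 * Lam * M * ∑ j, |w j z| * ‖fderiv ℝ (w j) z‖) := by
  have hLam : 0 ≤ Lam := (norm_nonneg _).trans ha
  have hM0 : 0 ≤ M := (norm_nonneg _).trans hM
  have e4 : fderiv ℝ (fun y => η y ^ 2) z = (2 * η z) • fderiv ℝ η z := by
    have h := hη.differentiableAt (by norm_num)
    have := (h.hasFDerivAt.pow 2).fderiv
    simpa using this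
  have e5 : fderiv ℝ (fun y => ∑ j, w j y ^ 2) z = ∑ j, (2 * w j z) • fderiv ℝ (w j) z := by
    have h : ∀ j, HasFDerivAt (fun y => w j y ^ 2) ((2 * w j z) • fderiv ℝ (w j) z) z := by
      intro j
      have h := ((hw j).differentiableAt (by norm_num)).hasFDerivAt.pow 2
      simpa using h
    exact (HasFDerivAt.fun_sum fun j _ => h j).fderiv
  rw [e4, e5, Gam_smul_left, Gam_sum_right, abs_mul, abs_mul, abs_two, abs_of_nonneg hη0]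
  have h1 : |∑ j, Gam a (fderiv ℝ η z) ((2 * w j z) • fderiv ℝ (w j) z)| ≤
      ∑ j, (4 * Lam * M) * (|w j z| * ‖fderiv ℝ (w j) z‖) := by
    refine (Finset.abs_sum_le_sum_abs _ _).trans (Finset.sum_le_sum fun j _ => ?_)
    rw [Gam_smul_right, abs_mul, abs_mul, abs_two]
    have h2 := abs_Gam_le a (fderiv ℝ η z) (fderiv ℝ (w j) z)
    have h3 : 2 * ‖a‖ * ‖fderiv ℝ η z‖ * ‖fderiv ℝ (w j) z‖ ≤
        2 * Lam * M * ‖fderiv ℝ (w j) z‖ := by gcongr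
    calc 2 * |w j z| * |Gam a (fderiv ℝ η z) (fderiv ℝ (w j) z)| ≤
        2 * |w j z| * (2 * Lam * M * ‖fderiv ℝ (w j) z‖) :=
          mul_le_mul_of_nonneg_left (h2.trans h3) (by positivity)
      _ = _ := by ring
  rw [← Finset.mul_sum] at h1
  calc 2 * η z * |∑ j, Gam a (fderiv ℝ η z) ((2 * w j z) • fderiv ℝ (w j) z)| ≤
      2 * η z * (4 * Lam * M * ∑ j, |w j z| * ‖fderiv ℝ (w j) z‖) :=
        mul_le_mul_of_nonneg_left h1 (mul_nonneg zero_le_two hη0)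
    _ = _ := by ring

/-- the final inequality at the maximum -/
lemma fin_ineq {η2 W V D LW LV Lη G μ κ lam A₁ M₂ c₁ A₃ cr : ℝ} (hη0 : 0 ≤ η2) (hη1 : η2 ≤ 1)
    (hW : 0 ≤ W) (hV : 0 ≤ V) (hA₁ : 0 ≤ A₁) (hM₂ : 0 ≤ M₂) (hc₁ : 0 ≤ c₁) (hμ : 0 ≤ μ)
    (hmax : η2 * LW + W * Lη + G + μ * LV ≤ 0)
    (i1 : lam * D - A₁ * (W + V) ≤ LW) (i2 : κ * W - A₃ * V ≤ LV)
    (i3 : cr ≤ lam * (η2 * D) + c₁ * W) (i4 : |G| ≤ cr) (i5 : |Lη| ≤ M₂)
    (hμκ : μ * κ = (A₁ + M₂ + c₁) + 1) : W ≤ (A₁ + M₂ + c₁ + μ * A₃) * V := by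
  have g1 := neg_abs_le G
  have g2 := neg_abs_le Lη
  have g3 : -(M₂ * W) ≤ W * Lη := by nlinarith
  have i7 := mul_le_mul_of_nonneg_left i1 hη0
  have i8 := mul_le_mul_of_nonneg_left i2 hμ
  have i9 : η2 * (A₁ * (W + V)) ≤ A₁ * (W + V) := mul_le_of_le_one_left (by positivity) hη1
  have i10 : μ * (κ * W) = (A₁ + M₂ + c₁ + 1) * W := by rw [← mul_assoc, hμκ]
  have i11 : 0 ≤ (M₂ + c₁) * V := by positivity
  rw [mul_sub, i10] at i8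
  rw [mul_sub] at i7
  nlinarith

/-- the estimate at an interior maximum -/
lemma max_pt {a : E → (E →L[ℝ] E →L[ℝ] ℝ) →L[ℝ] ℝ} {z : E} {lam Lam M M₂ A N : ℝ}
    (hlam : 0 < lam) (hell : ∀ ξ : E →L[ℝ] ℝ, lam * ‖ξ‖ ^ 2 ≤ a z (tp ξ ξ)) (hLb : ‖a z‖ ≤ Lam)
    (hM₂ : 0 ≤ M₂) (hA : 0 ≤ A) (hN : 0 < N)
    (hI : (Fintype.card I : ℝ) ≤ N) (hJ : (Fintype.card J : ℝ) ≤ N)
    {η : E → ℝ} (hη : ContDiffAt ℝ 2 η z) (hη0 : 0 ≤ η z) (hη1 : η z ≤ 1)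
    (hMb : ‖fderiv ℝ η z‖ ≤ M) (hM₂b : |Lo a (fun y => η y ^ 2) z| ≤ M₂)
    {u : I → E → ℝ} {w : J → E → ℝ} (hu : ∀ i, ContDiffAt ℝ 2 (u i) z)
    (hw : ∀ j, ContDiffAt ℝ 2 (w j) z)
    (hLw : ∀ j, |Lo a (w j) z| ≤ A * (∑ m, ‖fderiv ℝ (w m) z‖ + ∑ m, |w m z| + ∑ i, |u i z|))
    (hLu : ∀ i, |Lo a (u i) z| ≤ A * (∑ m, |w m z| + ∑ i, |u i z|))
    (hwu : ∀ j, |w j z| ≤ A * ∑ i, ‖fderiv ℝ (u i) z‖) {κ A₁ A₃ c₁ μ : ℝ}
    (hκ : κ = lam * (1 / (N ^ 2 * A ^ 2 + 1)))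
    (hA₁ : A₁ = A ^ 2 * N ^ 2 / lam + 3 * A * N) (hA₃ : A₃ = A ^ 2 * N ^ 2 / κ + 2 * A * N)
    (hc₁ : c₁ = (8 * Lam * M) ^ 2 / (4 * lam)) (hμ : 0 ≤ μ) (hμκ : μ * κ = (A₁ + M₂ + c₁) + 1)
    (hmax : IsLocalMax (fun y => η y ^ 2 * (∑ j, w j y ^ 2) + μ * ∑ i, u i y ^ 2) z) :
    ∑ j, w j z ^ 2 ≤ (A₁ + M₂ + c₁ + μ * A₃) * ∑ i, u i z ^ 2 := by
  have hη2 : ContDiffAt ℝ 2 (fun y => η y ^ 2) z := hη.pow 2
  have hWd : ContDiffAt ℝ 2 (fun y => ∑ j, w j y ^ 2) z := ContDiffAt.sum fun j _ => (hw j).pow 2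
  have hVd : ContDiffAt ℝ 2 (fun y => ∑ i, u i y ^ 2) z := ContDiffAt.sum fun i _ => (hu i).pow 2
  have hLΦ := Lo_nonpos_of_max (a := a) (z := z) (fun ξ =>
    le_trans (by positivity) (hell ξ)) hmax ((hη2.mul hWd).add (contDiffAt_const.mul hVd))
  rw [Lo_add (hη2.mul hWd) (contDiffAt_const.mul hVd), Lo_mul hη2 hWd, Lo_const_mul hVd] at hLΦ
  have e2 : Lo a (fun y => ∑ j, w j y ^ 2) z = ∑ j, (2 * (w j z * Lo a (w j) z) +
      2 * a z (tp (fderiv ℝ (w j) z) (fderiv ℝ (w j) z))) := by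
    rw [Lo_sum _ fun j _ => (hw j).pow 2]
    exact Finset.sum_congr rfl fun j _ => Lo_sq (hw j)
  have e3 : Lo a (fun y => ∑ i, u i y ^ 2) z = ∑ i, (2 * (u i z * Lo a (u i) z) +
      2 * a z (tp (fderiv ℝ (u i) z) (fderiv ℝ (u i) z))) := by
    rw [Lo_sum _ fun i _ => (hu i).pow 2]
    exact Finset.sum_congr rfl fun i _ => Lo_sq (hu i)
  have i1 := pt1 hlam hA hN hI hJ (fun i => u i z) (fun j => w j z)
    (fun j => ‖fderiv ℝ (w j) z‖)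
    (fun j => a z (tp (fderiv ℝ (w j) z) (fderiv ℝ (w j) z)))
    (fun j => Lo a (w j) z) (fun j => hell _) (fun j => hLw j)
  have i2 := pt2 hlam hA hN hI hJ (fun i => u i z) (fun j => w j z)
    (fun i => ‖fderiv ℝ (u i) z‖)
    (fun i => a z (tp (fderiv ℝ (u i) z) (fderiv ℝ (u i) z)))
    (fun i => Lo a (u i) z) (fun i => hell _) (fun i => hLu i) (fun j => hwu j)
  have i3 := pt3 (lam := lam) (c := 8 * Lam * M) (η := η z) hlam (fun j => w j z)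
    (fun j => ‖fderiv ℝ (w j) z‖)
  have i4 := cross (J := J) hη hη0 (fun j => hw j) (a z) hLb hMb
  have hη1' : η z ^ 2 ≤ 1 := pow_le_one₀ hη0 hη1
  rw [← e2, ← hA₁] at i1
  rw [← e3, ← hκ, ← hA₃] at i2
  rw [← hc₁] at i3
  exact fin_ineq (sq_nonneg _) hη1' (Finset.sum_nonneg fun _ _ => sq_nonneg _)
    (Finset.sum_nonneg fun _ _ => sq_nonneg _) (by rw [hA₁]; positivity) hM₂
    (by rw [hc₁]; positivity) hμ hLΦ i1 i2 i3 i4 hM₂b hμκ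

/-- **Bernstein's estimate** -/
theorem bern {a : E → (E →L[ℝ] E →L[ℝ] ℝ) →L[ℝ] ℝ} {x₀ : E} {R : ℝ} (hR : 0 < R)
    (hc : ContinuousOn a (closedBall x₀ R))
    (hpos : ∀ z ∈ closedBall x₀ R, ∀ ξ : E →L[ℝ] ℝ, ξ ≠ 0 → 0 < a z (tp ξ ξ))
    (I J : Type) [Fintype I] [Fintype J] {A : ℝ} (hA : 0 ≤ A) :
    ∃ C : ℝ, 0 ≤ C ∧ ∀ (u : I → E → ℝ) (w : J → E → ℝ) (S : ℝ), 0 ≤ S →
      (∀ i, ∀ z ∈ ball x₀ R, ContDiffAt ℝ 2 (u i) z) →
      (∀ j, ∀ z ∈ ball x₀ R, ContDiffAt ℝ 2 (w j) z) →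
      (∀ j, ∀ z ∈ ball x₀ R, |Lo a (w j) z| ≤
        A * (∑ m, ‖fderiv ℝ (w m) z‖ + ∑ m, |w m z| + ∑ i, |u i z|)) →
      (∀ i, ∀ z ∈ ball x₀ R, |Lo a (u i) z| ≤ A * (∑ m, |w m z| + ∑ i, |u i z|)) →
      (∀ j, ∀ z ∈ ball x₀ R, |w j z| ≤ A * ∑ i, ‖fderiv ℝ (u i) z‖) →
      (∀ i, ∀ z ∈ ball x₀ R, |u i z| ≤ S) → ∀ j, ∀ z ∈ ball x₀ (R / 2), |w j z| ≤ C * S := by
  obtain ⟨lam, hlam, hell⟩ := exists_ell (isCompact_closedBall x₀ R) hc hpos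
  obtain ⟨Lam, hLam, hLb⟩ := exists_bd (isCompact_closedBall x₀ R) hc
  set η : ContDiffBump x₀ := ⟨R / 2, 3 * R / 4, by positivity, by linarith⟩ with hη
  have hηs : ContDiff ℝ 2 η := η.contDiff
  have hη2 : ContDiff ℝ 2 fun z => η z ^ 2 := hηs.pow 2
  obtain ⟨M, hM, hMb⟩ := exists_bd (isCompact_closedBall x₀ R)
    ((hηs.continuous_fderiv (by norm_num)).continuousOn (s := closedBall x₀ R))
  have hLη : ContinuousOn (fun z => Lo a (fun y => η y ^ 2) z) (closedBall x₀ R) := by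
    unfold Lo
    refine hc.clm_apply ?_
    exact ((hη2.fderiv_right (m := 1) (by norm_num)).continuous_fderiv (by norm_num)).continuousOn
  obtain ⟨M₂, hM₂, hM₂b⟩ := exists_bd (isCompact_closedBall x₀ R) hLη
  obtain ⟨N, hN0, hI, hJ⟩ : ∃ N : ℝ, 0 < N ∧ (Fintype.card I : ℝ) ≤ N ∧
      (Fintype.card J : ℝ) ≤ N := by
    have h1 : (0:ℝ) ≤ Fintype.card I := Nat.cast_nonneg _
    have h2 : (0:ℝ) ≤ Fintype.card J := Nat.cast_nonneg _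
    exact ⟨(Fintype.card I : ℝ) + (Fintype.card J : ℝ) + 1, by positivity, by linarith,
      by linarith⟩
  obtain ⟨κ, hκ⟩ : ∃ κ : ℝ, κ = lam * (1 / (N ^ 2 * A ^ 2 + 1)) := ⟨_, rfl⟩
  obtain ⟨A₁, hA₁⟩ : ∃ A₁ : ℝ, A₁ = A ^ 2 * N ^ 2 / lam + 3 * A * N := ⟨_, rfl⟩
  obtain ⟨A₃, hA₃⟩ : ∃ A₃ : ℝ, A₃ = A ^ 2 * N ^ 2 / κ + 2 * A * N := ⟨_, rfl⟩
  obtain ⟨c₁, hc₁⟩ : ∃ c₁ : ℝ, c₁ = (8 * Lam * M) ^ 2 / (4 * lam) := ⟨_, rfl⟩
  obtain ⟨μ, hμ⟩ : ∃ μ : ℝ, μ = (A₁ + M₂ + c₁ + 1) / κ := ⟨_, rfl⟩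
  have hκ0 : 0 < κ := by rw [hκ]; positivity
  have hA₁0 : 0 ≤ A₁ := by rw [hA₁]; positivity
  have hA₃0 : 0 ≤ A₃ := by rw [hA₃]; positivity
  have hc₁0 : 0 ≤ c₁ := by rw [hc₁]; positivity
  have hμ0 : 0 ≤ μ := by rw [hμ]; positivity
  have hμκ : μ * κ = (A₁ + M₂ + c₁) + 1 := by rw [hμ, div_mul_cancel₀ _ hκ0.ne']
  obtain ⟨B, hB⟩ : ∃ B : ℝ, B = A₁ + M₂ + c₁ + μ * A₃ := ⟨_, rfl⟩
  have hB0 : 0 ≤ B := by rw [hB]; positivity
  refine ⟨Real.sqrt ((B + μ) * N), Real.sqrt_nonneg _,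
    fun u w S hS hu hw hLw hLu hwu hb j z hz => ?_⟩
  have hVS : ∀ y ∈ ball x₀ R, ∑ i, u i y ^ 2 ≤ N * S ^ 2 := by
    intro y hy
    calc ∑ i, u i y ^ 2 ≤ ∑ _i : I, S ^ 2 := by
          refine Finset.sum_le_sum fun i _ => ?_
          rw [← sq_abs]
          exact pow_le_pow_left₀ (abs_nonneg _) (hb i y hy) 2
      _ = (Fintype.card I : ℝ) * S ^ 2 := by
          rw [Finset.sum_const, Finset.card_univ, nsmul_eq_mul]
      _ ≤ _ := mul_le_mul_of_nonneg_right hI (sq_nonneg _)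
  obtain ⟨Φ, hΦ⟩ : ∃ Φ : E → ℝ, Φ = fun y => η y ^ 2 * (∑ j, w j y ^ 2) + μ * ∑ i, u i y ^ 2 :=
    ⟨_, rfl⟩
  have hΦd : ∀ y ∈ ball x₀ R, ContinuousAt Φ y := by
    intro y hy
    rw [hΦ]
    refine (hη2.continuous.continuousAt.mul ?_).add (continuousAt_const.mul ?_)
    · exact (ContDiffAt.sum fun j _ => (hw j y hy).pow 2 :
        ContDiffAt ℝ 2 (fun y => ∑ j, w j y ^ 2) y).continuousAt
    · exact (ContDiffAt.sum fun i _ => (hu i y hy).pow 2 :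
        ContDiffAt ℝ 2 (fun y => ∑ i, u i y ^ 2) y).continuousAt
  have hsub : closedBall x₀ (3 * R / 4) ⊆ ball x₀ R := closedBall_subset_ball (by linarith)
  -- the maximum of `Φ`
  have key : ∀ y ∈ closedBall x₀ (3 * R / 4), Φ y ≤ (B + μ) * (N * S ^ 2) := by
    obtain ⟨z₁, hz₁, hmax⟩ := (isCompact_closedBall x₀ (3 * R / 4)).exists_isMaxOn
      ⟨x₀, mem_closedBall_self (by positivity)⟩
      (fun y hy => (hΦd y (hsub hy)).continuousWithinAt :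
        ContinuousOn Φ (closedBall x₀ (3 * R / 4)))
    intro y hy
    refine (hmax hy).trans ?_
    have hz₁R := hsub hz₁
    have hz₁' : z₁ ∈ closedBall x₀ R := ball_subset_closedBall hz₁R
    have hVz := hVS z₁ hz₁R
    have hNS : 0 ≤ N * S ^ 2 := by positivity
    have h1 : μ * ∑ i, u i z₁ ^ 2 ≤ μ * (N * S ^ 2) := mul_le_mul_of_nonneg_left hVz hμ0
    have h1' : Φ z₁ = η z₁ ^ 2 * (∑ j, w j z₁ ^ 2) + μ * ∑ i, u i z₁ ^ 2 := by rw [hΦ]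
    rw [h1']
    rcases eq_or_ne (η z₁) 0 with h0 | h0
    · rw [h0]
      have h2 : 0 ≤ B * (N * S ^ 2) := by positivity
      linarith
    · have hint : z₁ ∈ ball x₀ (3 * R / 4) := by
        have : z₁ ∈ Function.support η := h0
        rw [η.support_eq] at this
        exact this
      have hloc : IsLocalMax Φ z₁ := by
        filter_upwards [isOpen_ball.mem_nhds hint] with y hy
        exact hmax (ball_subset_closedBall hy)
      rw [hΦ] at hloc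
      have hfin := max_pt (u := u) (w := w) hlam (hell z₁ hz₁') (hLb z₁ hz₁') hM₂ hA hN0 hI hJ
        hηs.contDiffAt η.nonneg η.le_one (hMb z₁ hz₁') (hM₂b z₁ hz₁') (fun i => hu i z₁ hz₁R)
        (fun j => hw j z₁ hz₁R) (fun j => hLw j z₁ hz₁R) (fun i => hLu i z₁ hz₁R)
        (fun j => hwu j z₁ hz₁R) hκ hA₁ hA₃ hc₁ hμ0 hμκ hloc
      rw [← hB] at hfin
      have hη1 : η z₁ ^ 2 ≤ 1 := pow_le_one₀ η.nonneg η.le_one
      have hfin2 : η z₁ ^ 2 * (∑ j, w j z₁ ^ 2) ≤ ∑ j, w j z₁ ^ 2 :=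
        mul_le_of_le_one_left (Finset.sum_nonneg fun _ _ => sq_nonneg _) hη1
      have hfin3 : B * ∑ i, u i z₁ ^ 2 ≤ B * (N * S ^ 2) := mul_le_mul_of_nonneg_left hVz hB0
      linarith
  have hzc : z ∈ closedBall x₀ (3 * R / 4) :=
    (ball_subset_ball (by linarith)).trans ball_subset_closedBall hz
  have h1 := key z hzc
  have h2 : η z = 1 := η.one_of_mem_closedBall (ball_subset_closedBall hz)
  have h3 : w j z ^ 2 ≤ (B + μ) * N * S ^ 2 := by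
    have h4 : Φ z = (∑ j, w j z ^ 2) + μ * ∑ i, u i z ^ 2 := by
      rw [hΦ]; show η z ^ 2 * _ + _ = _
      rw [h2]; ring
    have h5 : 0 ≤ μ * ∑ i, u i z ^ 2 :=
      mul_nonneg hμ0 (Finset.sum_nonneg fun _ _ => sq_nonneg _)
    have h6 : w j z ^ 2 ≤ ∑ j, w j z ^ 2 :=
      Finset.single_le_sum (f := fun j => w j z ^ 2) (fun _ _ => sq_nonneg _) (Finset.mem_univ j)
    linarith
  have h5 : |w j z| = Real.sqrt (w j z ^ 2) := (Real.sqrt_sq_eq_abs _).symm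
  rw [h5, show Real.sqrt ((B + μ) * N) * S = Real.sqrt ((B + μ) * N * S ^ 2) by
    rw [Real.sqrt_mul (by positivity : 0 ≤ (B + μ) * N) (S ^ 2), Real.sqrt_sq hS]]
  exact Real.sqrt_le_sqrt h3

end Vale.Agent.P299.H104
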