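import Vale.Agent.P299.H104.Jets
import Vale.Agent.P299.H760.Iface
import Mathlib.Analysis.Calculus.ContDiff.Bounds

/-!
# P299, D2-LOC1: interior estimates of all orders
-/

open scoped ContDiff Topology
open Filter Metric Set Module

set_option maxSynthPendingDepth 3

noncomputable section

namespace Vale.Agent.P299.H104

variable {E : Type} [NormedAddCommGroup E] [NormedSpace ℝ E] [FiniteDimensional ℝ E]
variable {a : E → (E →L[ℝ] E →L[ℝ] ℝ) →L[ℝ] ℝ} {U : Set E}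

omit [NormedSpace ℝ E] [FiniteDimensional ℝ E] in
lemma exists_bd_fin {K : Set E} (hK : IsCompact K) {F : Type*} [NormedAddCommGroup F] {ι : Type}
    [Fintype ι] {f : ι → E → F} (hf : ∀ i, ContinuousOn (f i) K) :
    ∃ C : ℝ, 0 ≤ C ∧ ∀ i, ∀ z ∈ K, ‖f i z‖ ≤ C := by
  choose C hC h using fun i => exists_bd hK (hf i)
  refine ⟨∑ i, C i, Finset.sum_nonneg fun i _ => hC i, fun i z hz => (h i z hz).trans ?_⟩
  exact Finset.single_le_sum (fun i _ => hC i) (Finset.mem_univ i)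

omit [FiniteDimensional ℝ E] in
/-- bound for a linear combination -/
lemma abs_comb_le {ι : Type} [Fintype ι] {B : ℝ} (P : ι → (E →L[ℝ] ℝ) →L[ℝ] ℝ) (Q : ι → ℝ)
    (hP : ∀ i, ‖P i‖ ≤ B) (hQ : ∀ i, ‖Q i‖ ≤ B) (ξ : ι → E →L[ℝ] ℝ) (y : ι → ℝ) :
    |∑ j, P j (ξ j) + ∑ j, Q j * y j| ≤ B * (∑ j, ‖ξ j‖ + ∑ j, |y j|) := by
  refine (abs_add_le _ _).trans ?_
  rw [mul_add, Finset.mul_sum, Finset.mul_sum]
  refine add_le_add ((Finset.abs_sum_le_sum_abs _ _).trans (Finset.sum_le_sum fun j _ => ?_))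
    ((Finset.abs_sum_le_sum_abs _ _).trans (Finset.sum_le_sum fun j _ => ?_))
  · exact ((P j).le_opNorm _).trans (mul_le_mul_of_nonneg_right (hP j) (norm_nonneg _))
  · rw [abs_mul]
    exact mul_le_mul_of_nonneg_right (hQ j) (abs_nonneg _)

/-- **gradient estimate for systems** -/
theorem Sys.bound (ha : ∀ z ∈ U, ContDiffAt ℝ ∞ a z)
    (hpos : ∀ z ∈ U, ∀ ξ : E →L[ℝ] ℝ, ξ ≠ 0 → 0 < a z (tp ξ ξ)) {I : Type} [Fintype I]
    {P : I → I → E → (E →L[ℝ] ℝ) →L[ℝ] ℝ} {Q : I → I → E → ℝ}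
    (hP : ∀ i j, ∀ z ∈ U, ContDiffAt ℝ ∞ (P i j) z)
    (hQ : ∀ i j, ∀ z ∈ U, ContDiffAt ℝ ∞ (Q i j) z) {x₀ : E} {R : ℝ} (hR : 0 < R)
    (hsub : closedBall x₀ R ⊆ U) :
    ∃ C : ℝ, 0 ≤ C ∧ ∀ (u : I → E → ℝ) (S : ℝ), 0 ≤ S →
      (∀ i, ∀ z ∈ ball x₀ R, ContDiffAt ℝ ∞ (u i) z) → Sys a P Q (ball x₀ R) u →
      (∀ i, ∀ z ∈ ball x₀ R, |u i z| ≤ S) → ∀ x, ∀ z ∈ ball x₀ (R / 2), |H104.jt u x z| ≤ C * S := by
  have hK := isCompact_closedBall x₀ R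
  obtain ⟨B₁, hB₁, hB₁'⟩ := exists_bd_fin hK (ι := (I ⊕ (I × Fin (dm E))) × (I ⊕ (I × Fin (dm E))))
    (f := fun p => jP a P p.1 p.2) fun p z hz =>
      (contDiffAt_jP (ha z (hsub hz)) (fun i j => hP i j z (hsub hz)) _ _).continuousAt
        |>.continuousWithinAt
  obtain ⟨B₂, hB₂, hB₂'⟩ := exists_bd_fin hK (ι := (I ⊕ (I × Fin (dm E))) × (I ⊕ (I × Fin (dm E))))
    (f := fun p => jQ Q p.1 p.2) fun p z hz =>
      (contDiffAt_jQ (fun i j => hQ i j z (hsub hz)) _ _).continuousAt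
        |>.continuousWithinAt
  obtain ⟨C₀, hC₀, hn, hn'⟩ := exists_normC (E := E)
  obtain ⟨B, hB⟩ : ∃ B : ℝ, B = B₁ + B₂ := ⟨_, rfl⟩
  have hB0 : 0 ≤ B := by rw [hB]; positivity
  have hBP : ∀ x y, ∀ z ∈ closedBall x₀ R, ‖jP a P x y z‖ ≤ B := fun x y z hz =>
    (hB₁' (x, y) z hz).trans (by rw [hB]; linarith)
  have hBQ : ∀ x y, ∀ z ∈ closedBall x₀ R, ‖jQ Q x y z‖ ≤ B := fun x y z hz =>
    (hB₂' (x, y) z hz).trans (by rw [hB]; linarith)
  obtain ⟨A, hA⟩ : ∃ A : ℝ, A = B * (1 + C₀) + C₀ := ⟨_, rfl⟩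
  have hA0 : 0 ≤ A := by rw [hA]; positivity
  have hBA : B ≤ A := by rw [hA]; nlinarith
  have hCA : C₀ ≤ A := by rw [hA]; nlinarith [mul_nonneg hB0 (by positivity : (0:ℝ) ≤ 1 + C₀)]
  have hBCA : B * (1 + C₀) ≤ A := by rw [hA]; linarith
  obtain ⟨C, hC, h⟩ := bern (a := a) (x₀ := x₀) hR
    (fun z hz => (ha z (hsub hz)).continuousAt.continuousWithinAt)
    (fun z hz => hpos z (hsub hz)) I (I × Fin (dm E)) hA0
  refine ⟨C + 1, by positivity, fun u S hS hu hsys hb x z hz => ?_⟩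
  have hcb : ∀ z ∈ ball x₀ R, z ∈ closedBall x₀ R := fun z hz => ball_subset_closedBall hz
  have hsubR : ball x₀ R ⊆ U := fun z hz => hsub (hcb z hz)
  have hsys' := hsys.jt isOpen_ball (fun z hz => ha z (hsubR hz))
    (fun i j z hz => hP i j z (hsubR hz)) (fun i j z hz => hQ i j z (hsubR hz)) hu
  have hDu : ∀ z, ∑ j, ‖fderiv ℝ (u j) z‖ ≤
      C₀ * ∑ m : I × Fin (dm E), |dd m.2 (u m.1) z| := by
    intro z
    rw [Fintype.sum_prod_type, Finset.mul_sum]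
    exact Finset.sum_le_sum fun j _ => hn _
  have key := h u (fun m : I × Fin (dm E) => dd m.2 (u m.1)) S hS
    (fun i z hz => (hu i z hz).of_le two_le)
    (fun m z hz => (contDiffAt_dd (hu m.1 z hz) m.2).of_le two_le)
    (fun m z hz => by
      have h1 := hsys' (.inr m) z hz
      have h2 := abs_comb_le (fun y => jP a P (.inr m) y z) (fun y => jQ Q (.inr m) y z)
        (fun y => hBP _ y z (hcb z hz)) (fun y => hBQ _ y z (hcb z hz))
        (fun y => fderiv ℝ (H104.jt u y) z) (fun y => H104.jt u y z)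
      rw [← h1, Fintype.sum_sum_type, Fintype.sum_sum_type] at h2
      have h3 := hDu z
      have e1 : |Lo a (dd m.2 (u m.1)) z| ≤ B * ((∑ j, ‖fderiv ℝ (u j) z‖ +
        ∑ m : I × Fin (dm E), ‖fderiv ℝ (dd m.2 (u m.1)) z‖) +
        (∑ j, |u j z| + ∑ m : I × Fin (dm E), |dd m.2 (u m.1) z|)) := h2
      have p1 : 0 ≤ ∑ m : I × Fin (dm E), ‖fderiv ℝ (dd m.2 (u m.1)) z‖ := by positivity
      have p2 : 0 ≤ ∑ m : I × Fin (dm E), |dd m.2 (u m.1) z| := by positivity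
      have p3 : 0 ≤ ∑ j, |u j z| := by positivity
      refine e1.trans ?_
      calc _ ≤ B * ((C₀ * ∑ m : I × Fin (dm E), |dd m.2 (u m.1) z| +
            ∑ m : I × Fin (dm E), ‖fderiv ℝ (dd m.2 (u m.1)) z‖) +
            (∑ j, |u j z| + ∑ m : I × Fin (dm E), |dd m.2 (u m.1) z|)) := by gcongr
        _ = B * ∑ m : I × Fin (dm E), ‖fderiv ℝ (dd m.2 (u m.1)) z‖ +
            (B * (1 + C₀)) * ∑ m : I × Fin (dm E), |dd m.2 (u m.1) z| +
            B * ∑ j, |u j z| := by ring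
        _ ≤ A * ∑ m : I × Fin (dm E), ‖fderiv ℝ (dd m.2 (u m.1)) z‖ +
            A * ∑ m : I × Fin (dm E), |dd m.2 (u m.1) z| + A * ∑ j, |u j z| := by gcongr
        _ = _ := by ring)
    (fun i z hz => by
      have h1 := hsys i z hz
      have h2 := abs_comb_le (fun j => P i j z) (fun j => Q i j z)
        (fun j => hBP (.inl i) (.inl j) z (hcb z hz)) (fun j => hBQ (.inl i) (.inl j) z (hcb z hz))
        (fun j => fderiv ℝ (u j) z) (fun j => u j z)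
      rw [← h1] at h2
      have h3 := hDu z
      have p2 : 0 ≤ ∑ m : I × Fin (dm E), |dd m.2 (u m.1) z| := by positivity
      have p3 : 0 ≤ ∑ j, |u j z| := by positivity
      refine h2.trans ?_
      calc _ ≤ B * (C₀ * ∑ m : I × Fin (dm E), |dd m.2 (u m.1) z| + ∑ j, |u j z|) := by gcongr
        _ = (B * C₀) * ∑ m : I × Fin (dm E), |dd m.2 (u m.1) z| + B * ∑ j, |u j z| := by ring
        _ ≤ (B * (1 + C₀)) * ∑ m : I × Fin (dm E), |dd m.2 (u m.1) z| + B * ∑ j, |u j z| := by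
            gcongr; linarith
        _ ≤ A * ∑ m : I × Fin (dm E), |dd m.2 (u m.1) z| + A * ∑ j, |u j z| := by gcongr
        _ = _ := by ring)
    (fun m z hz => by
      have h1 : |dd m.2 (u m.1) z| ≤ C₀ * ‖fderiv ℝ (u m.1) z‖ := hn' _ _
      have h2 : ‖fderiv ℝ (u m.1) z‖ ≤ ∑ j, ‖fderiv ℝ (u j) z‖ :=
        Finset.single_le_sum (f := fun j => ‖fderiv ℝ (u j) z‖) (fun _ _ => norm_nonneg _)
          (Finset.mem_univ _)
      exact h1.trans (mul_le_mul hCA h2 (norm_nonneg _) hA0))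
    hb
  rcases x with i | m
  · have h1 : |H104.jt u (.inl i) z| ≤ S := hb i z (ball_subset_ball (by linarith) hz)
    have h2 : 0 ≤ C * S := by positivity
    linarith
  · have h1 : |H104.jt u (.inr m) z| ≤ C * S := key m z hz
    linarith

lemma norm_iteratedFDeriv_succ_le {u : E → ℝ} {z : E} {k : ℕ} {C : ℝ}
    (hu : ContDiffAt ℝ ∞ u z) (h : ∀ t, ‖iteratedFDeriv ℝ k (dd t u) z‖ ≤ C) :
    ‖iteratedFDeriv ℝ (k + 1) u z‖ ≤ (∑ t, ‖(bc t : E →L[ℝ] ℝ)‖) * C := by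
  rw [← norm_iteratedFDeriv_fderiv]
  have h1 : fderiv ℝ u = fun y => ∑ t,
      ((ContinuousLinearMap.id ℝ ℝ).smulRight (bc t) ∘ dd t u) y := by
    ext1 y
    rw [form_eq (fderiv ℝ u y)]
    rfl
  have h2 : ∀ t, ContDiffAt ℝ k
      ((ContinuousLinearMap.id ℝ ℝ).smulRight (bc t : E →L[ℝ] ℝ) ∘ dd t u) z := fun t =>
    (ContinuousLinearMap.contDiff _).contDiffAt.comp z
      ((contDiffAt_dd hu t).of_le (WithTop.coe_le_coe.2 le_top))
  rw [h1, iteratedFDeriv_fun_sum_apply fun t _ => h2 t, Finset.sum_mul]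
  refine (norm_sum_le _ _).trans (Finset.sum_le_sum fun t _ => ?_)
  refine (ContinuousLinearMap.norm_iteratedFDeriv_comp_left _ (contDiffAt_dd hu t)
    (WithTop.coe_le_coe.2 le_top)).trans ?_
  rw [ContinuousLinearMap.norm_smulRight_apply]
  have h3 : ‖ContinuousLinearMap.id ℝ ℝ‖ ≤ 1 := ContinuousLinearMap.norm_id_le
  have h4 := h t
  calc ‖ContinuousLinearMap.id ℝ ℝ‖ * ‖(bc t : E →L[ℝ] ℝ)‖ * ‖iteratedFDeriv ℝ k (dd t u) z‖ ≤
      1 * ‖(bc t : E →L[ℝ] ℝ)‖ * C := by gcongr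
    _ = _ := by ring

/-- **interior estimates of all orders for systems** -/
theorem Sys.interior (ha : ∀ z ∈ U, ContDiffAt ℝ ∞ a z)
    (hpos : ∀ z ∈ U, ∀ ξ : E →L[ℝ] ℝ, ξ ≠ 0 → 0 < a z (tp ξ ξ)) (m : ℕ) :
    ∀ (I : Type) [Fintype I] (P : I → I → E → (E →L[ℝ] ℝ) →L[ℝ] ℝ) (Q : I → I → E → ℝ),
    (∀ i j, ∀ z ∈ U, ContDiffAt ℝ ∞ (P i j) z) → (∀ i j, ∀ z ∈ U, ContDiffAt ℝ ∞ (Q i j) z) →
    ∀ (x₀ : E) (R : ℝ), 0 < R → closedBall x₀ R ⊆ U →
    ∃ ρ : ℝ, 0 < ρ ∧ ρ ≤ R ∧ ∃ C : ℝ, 0 ≤ C ∧ ∀ (u : I → E → ℝ) (S : ℝ), 0 ≤ S →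
      (∀ i, ∀ z ∈ ball x₀ R, ContDiffAt ℝ ∞ (u i) z) → Sys a P Q (ball x₀ R) u →
      (∀ i, ∀ z ∈ ball x₀ R, |u i z| ≤ S) →
      ∀ k ≤ m, ∀ i, ∀ z ∈ ball x₀ ρ, ‖iteratedFDeriv ℝ k (u i) z‖ ≤ C * S := by
  induction m with
  | zero =>
    intro I _ P Q hP hQ x₀ R hR hsub
    refine ⟨R, hR, le_rfl, 1, zero_le_one, fun u S hS hu hsys hb k hk i z hz => ?_⟩
    obtain rfl : k = 0 := by omega
    rw [norm_iteratedFDeriv_zero, one_mul]
    exact hb i z hz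
  | succ m ih =>
    intro I _ P Q hP hQ x₀ R hR hsub
    obtain ⟨C₁, hC₁, h₁⟩ := Sys.bound ha hpos hP hQ hR hsub
    have hsub2 : closedBall x₀ (R / 2) ⊆ U :=
      (closedBall_subset_closedBall (by linarith)).trans hsub
    obtain ⟨ρ, hρ, hρR, C₂, hC₂, h₂⟩ := ih (I ⊕ (I × Fin (dm E))) (jP a P) (jQ Q)
      (fun x y z hz => contDiffAt_jP (ha z hz) (fun i j => hP i j z hz) x y)
      (fun x y z hz => contDiffAt_jQ (fun i j => hQ i j z hz) x y) x₀ (R / 2) (by positivity) hsub2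
    obtain ⟨C₃, hC₃⟩ : ∃ C₃ : ℝ, C₃ = ∑ t, ‖(bc t : E →L[ℝ] ℝ)‖ := ⟨_, rfl⟩
    have hC₃0 : 0 ≤ C₃ := by rw [hC₃]; positivity
    refine ⟨ρ, hρ, by linarith, C₂ * C₁ + C₃ * (C₂ * C₁), by positivity,
      fun u S hS hu hsys hb k hk i z hz => ?_⟩
    have hball : ball x₀ (R / 2) ⊆ ball x₀ R := ball_subset_ball (by linarith)
    have hbR : ball x₀ R ⊆ U := ball_subset_closedBall.trans hsub
    have hj : ∀ x, ∀ z ∈ ball x₀ (R / 2), ContDiffAt ℝ ∞ (H104.jt u x) z := by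
      rintro (i | p) z hz
      · exact hu i z (hball hz)
      · exact contDiffAt_dd (hu p.1 z (hball hz)) p.2
    have hjs : Sys a (jP a P) (jQ Q) (ball x₀ (R / 2)) (H104.jt u) :=
      Sys.jt isOpen_ball (fun z hz => ha z (hbR (hball hz)))
        (fun i j z hz => hP i j z (hbR (hball hz))) (fun i j z hz => hQ i j z (hbR (hball hz)))
        (fun i z hz => hu i z (hball hz)) (fun i z hz => hsys i z (hball hz))
    have h3 := h₂ (H104.jt u) (C₁ * S) (by positivity) hj hjs (h₁ u S hS hu hsys hb)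
    have h4 : 0 ≤ C₂ * C₁ * S := by positivity
    have h5 : 0 ≤ C₃ * (C₂ * C₁) * S := by positivity
    rcases Nat.lt_or_ge k (m + 1) with hk' | hk'
    · have h6 := h3 k (by omega) (.inl i) z hz
      have h7 : ‖iteratedFDeriv ℝ k (u i) z‖ ≤ C₂ * (C₁ * S) := h6
      linarith
    · obtain rfl : k = m + 1 := by omega
      have hz' : z ∈ ball x₀ R := ball_subset_ball (by linarith) hz
      have h6 := norm_iteratedFDeriv_succ_le (k := m) (C := C₂ * (C₁ * S)) (hu i z hz')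
        fun t => h3 m le_rfl (.inr (i, t)) z hz
      rw [← hC₃] at h6
      linarith

end Vale.Agent.P299.H104

namespace Vale.Agent.P299.H104

open Vale.Agent.P299.H760

/-- **D2-LOC1** -/
theorem interior : InteriorStatement := by
  intro E _ _ _ a U ha l x₀ R hR hsub m
  obtain ⟨ρ, hρ, hρR, C, hC, h⟩ := Sys.interior ha.smooth ha.pos m Unit
    (fun _ _ _ => 0) (fun _ _ _ => l) (fun _ _ _ _ => contDiffAt_const)
    (fun _ _ _ _ => contDiffAt_const) x₀ R hR hsub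
  refine ⟨ρ, hρ, hρR, C, hC, fun g S hg heq hb k hk z hz => ?_⟩
  have hS : 0 ≤ S := (abs_nonneg _).trans (hb x₀ (mem_ball_self hR))
  refine h (fun _ => g) S hS (fun _ => hg) (fun _ z hz => ?_) (fun _ => hb) k hk () z hz
  have := heq z hz
  simp only [Finset.univ_unique, zero_apply, Finset.sum_const_zero, Finset.sum_singleton, zero_add]
  exact this

end Vale.Agent.P299.H104
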