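import Vale.Agent.P299.H104.Bern

/-!
# P299, D2-LOC1: one-jets of the solutions of a system
-/

open scoped ContDiff Topology
open Filter Metric Set Module

set_option maxSynthPendingDepth 3

noncomputable section

namespace Vale.Agent.P299.H104

variable {E : Type} [NormedAddCommGroup E] [NormedSpace ℝ E] [FiniteDimensional ℝ E]
variable {I : Type} [Fintype I]

/-- `L u_i = ∑ P_ij (D u_j) + ∑ Q_ij u_j` on `s` -/
def Sys (a : E → (E →L[ℝ] E →L[ℝ] ℝ) →L[ℝ] ℝ) (P : I → I → E → (E →L[ℝ] ℝ) →L[ℝ] ℝ)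
    (Q : I → I → E → ℝ) (s : Set E) (u : I → E → ℝ) : Prop :=
  ∀ i, ∀ z ∈ s, Lo a (u i) z = ∑ j, P i j z (fderiv ℝ (u j) z) + ∑ j, Q i j z * u j z

variable (E) in
/-- the dimension -/
abbrev dm : ℕ := finrank ℝ E

variable (E) in
/-- a basis -/
def bs : Basis (Fin (dm E)) ℝ E := finBasis ℝ E

/-- the coordinates -/
def bc (t : Fin (dm E)) : E →L[ℝ] ℝ := ((bs E).coord t).toContinuousLinearMap

lemma bc_apply (t : Fin (dm E)) (v : E) : bc t v = (bs E).coord t v := rfl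

lemma sum_bc (v : E) : ∑ t, bc t v • bs E t = v := (bs E).sum_repr v

/-- `ξ = ∑ ξ(b_t) b_t*` -/
lemma form_eq (ξ : E →L[ℝ] ℝ) : ξ = ∑ t, ξ (bs E t) • bc t := by
  ext v
  conv_lhs => rw [← sum_bc v]
  simp [mul_comm]

/-- a bilinear form in coordinates -/
lemma bil_eq (B : E →L[ℝ] E →L[ℝ] ℝ) : B = ∑ t, tp (bc t) (B (bs E t)) := by
  ext v v'
  conv_lhs => rw [← sum_bc v]
  simp

/-- a constant for the norm in coordinates -/
lemma exists_normC : ∃ C : ℝ, 0 ≤ C ∧ (∀ ξ : E →L[ℝ] ℝ, ‖ξ‖ ≤ C * ∑ t, |ξ (bs E t)|) ∧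
    ∀ (ξ : E →L[ℝ] ℝ) (t : Fin (dm E)), |ξ (bs E t)| ≤ C * ‖ξ‖ := by
  refine ⟨∑ t, ‖(bc t : E →L[ℝ] ℝ)‖ + ∑ t, ‖bs E t‖, by positivity, fun ξ => ?_, fun ξ t => ?_⟩
  · conv_lhs => rw [form_eq ξ]
    refine (norm_sum_le _ _).trans ?_
    rw [Finset.mul_sum]
    refine Finset.sum_le_sum fun t _ => ?_
    rw [norm_smul, Real.norm_eq_abs, mul_comm]
    refine mul_le_mul_of_nonneg_right ?_ (abs_nonneg _)
    have h1 := Finset.single_le_sum (f := fun t => ‖(bc t : E →L[ℝ] ℝ)‖)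
      (fun _ _ => norm_nonneg _) (Finset.mem_univ t)
    have h2 : 0 ≤ ∑ t, ‖bs E t‖ := Finset.sum_nonneg fun _ _ => norm_nonneg _
    linarith
  · have h0 : |ξ (bs E t)| ≤ ‖ξ‖ * ‖bs E t‖ := ξ.le_opNorm _
    refine h0.trans ?_
    rw [mul_comm]
    refine mul_le_mul_of_nonneg_right ?_ (norm_nonneg _)
    have h1 := Finset.single_le_sum (f := fun t => ‖bs E t‖)
      (fun _ _ => norm_nonneg _) (Finset.mem_univ t)
    have h2 : 0 ≤ ∑ t, ‖(bc t : E →L[ℝ] ℝ)‖ := Finset.sum_nonneg fun _ _ => norm_nonneg _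
    linarith

/-- `∂_t u` -/
def dd (t : Fin (dm E)) (u : E → ℝ) (z : E) : ℝ := fderiv ℝ u z (bs E t)

lemma two_le : (2 : WithTop ℕ∞) ≤ ∞ := WithTop.coe_le_coe.2 le_top

omit [FiniteDimensional ℝ E] in
lemma diff_fderiv {F : Type*} [NormedAddCommGroup F] [NormedSpace ℝ F] {u : E → F} {z : E}
    (hu : ContDiffAt ℝ 2 u z) : DifferentiableAt ℝ (fderiv ℝ u) z :=
  (hu.fderiv_right (m := 1) (by norm_num)).differentiableAt (by norm_num)

lemma contDiffAt_dd {u : E → ℝ} {z : E} (hu : ContDiffAt ℝ ∞ u z) (t : Fin (dm E)) :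
    ContDiffAt ℝ ∞ (dd t u) z :=
  (hu.fderiv_right (m := ∞) (by simp)).clm_apply contDiffAt_const

lemma fderiv_dd {u : E → ℝ} {z : E} (hu : ContDiffAt ℝ 2 u z) (t : Fin (dm E)) :
    fderiv ℝ (dd t u) z = fderiv ℝ (fderiv ℝ u) z (bs E t) := by
  have h2 : HasFDerivAt (fun y => fderiv ℝ u y (bs E t))
      ((fderiv ℝ (fderiv ℝ u) z).flip (bs E t)) z := by
    have := (diff_fderiv hu).hasFDerivAt.clm_apply (hasFDerivAt_const (bs E t) z)
    simpa using this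
  have h3 : dd t u = fun y => fderiv ℝ u y (bs E t) := rfl
  rw [h3, h2.fderiv]
  ext v
  rw [ContinuousLinearMap.flip_apply]
  exact Vale.Agent.P272.K.MP.fderiv2_symm hu _ _

lemma fderiv2_dd {u : E → ℝ} {z : E} (hu : ContDiffAt ℝ ∞ u z) (t : Fin (dm E)) :
    fderiv ℝ (fderiv ℝ (dd t u)) z = fderiv ℝ (fderiv ℝ (fderiv ℝ u)) z (bs E t) := by
  have h0 : fderiv ℝ (dd t u) =ᶠ[𝓝 z] fun y => fderiv ℝ (fderiv ℝ u) y (bs E t) := by
    filter_upwards [(hu.of_le two_le).eventually (by simp)] with y hy using fderiv_dd hy t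
  rw [h0.fderiv_eq]
  have hu1 : ContDiffAt ℝ ∞ (fderiv ℝ u) z := hu.fderiv_right (m := ∞) (by simp)
  have h1 : DifferentiableAt ℝ (fderiv ℝ (fderiv ℝ u)) z := diff_fderiv (hu1.of_le two_le)
  have h2 : HasFDerivAt (fun y => fderiv ℝ (fderiv ℝ u) y (bs E t))
      ((fderiv ℝ (fderiv ℝ (fderiv ℝ u)) z).flip (bs E t)) z := by
    have := h1.hasFDerivAt.clm_apply (hasFDerivAt_const (bs E t) z)
    simpa using this
  rw [h2.fderiv]
  ext v
  rw [ContinuousLinearMap.flip_apply]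
  have h3 : IsSymmSndFDerivAt ℝ (fderiv ℝ u) z :=
    (hu1.of_le two_le).isSymmSndFDerivAt (by simp)
  rw [h3 v (bs E t)]

variable {a : E → (E →L[ℝ] E →L[ℝ] ℝ) →L[ℝ] ℝ}

/-- the operator applied to `∂_s u` -/
lemma Lo_dd {u : E → ℝ} {z : E} (ha : ContDiffAt ℝ ∞ a z) (hu : ContDiffAt ℝ ∞ u z)
    (s : Fin (dm E)) : Lo a (dd s u) z = fderiv ℝ (Lo a u) z (bs E s) -
      ∑ t, (fderiv ℝ a z (bs E s)) (tp (bc t) (fderiv ℝ (dd t u) z)) := by
  have hu1 : ContDiffAt ℝ ∞ (fderiv ℝ u) z := hu.fderiv_right (m := ∞) (by simp)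
  have h1 : DifferentiableAt ℝ (fderiv ℝ (fderiv ℝ u)) z := diff_fderiv (hu1.of_le two_le)
  have ha1 : DifferentiableAt ℝ a z := ha.differentiableAt (by simp)
  have h2 : fderiv ℝ (Lo a u) z (bs E s) = a z (fderiv ℝ (fderiv ℝ (fderiv ℝ u)) z (bs E s)) +
      (fderiv ℝ a z (bs E s)) (fderiv ℝ (fderiv ℝ u) z) := by
    have h3 := (ha1.hasFDerivAt.clm_apply h1.hasFDerivAt).fderiv
    have h4 : Lo a u = fun y => a y (fderiv ℝ (fderiv ℝ u) y) := rfl
    rw [h4, h3]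
    simp
  have h5 : (fderiv ℝ a z (bs E s)) (fderiv ℝ (fderiv ℝ u) z) =
      ∑ t, (fderiv ℝ a z (bs E s)) (tp (bc t) (fderiv ℝ (dd t u) z)) := by
    conv_lhs => rw [bil_eq (fderiv ℝ (fderiv ℝ u) z), map_sum]
    exact Finset.sum_congr rfl fun t _ => by rw [fderiv_dd (hu.of_le two_le) t]
  rw [h2, h5, Lo, fderiv2_dd hu s]
  ring

/-! ## The system of the jets -/

/-- the jet -/
def jt (u : I → E → ℝ) : I ⊕ (I × Fin (dm E)) → E → ℝ
  | .inl i => u i
  | .inr p => dd p.2 (u p.1)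

open Classical in
/-- first order coefficients -/
def jP (a : E → (E →L[ℝ] E →L[ℝ] ℝ) →L[ℝ] ℝ) (P : I → I → E → (E →L[ℝ] ℝ) →L[ℝ] ℝ) :
    I ⊕ (I × Fin (dm E)) → I ⊕ (I × Fin (dm E)) → E → (E →L[ℝ] ℝ) →L[ℝ] ℝ
  | .inl i, .inl j => P i j
  | .inl _, .inr _ => fun _ => 0
  | .inr p, .inl j => fun z => fderiv ℝ (P p.1 j) z (bs E p.2)
  | .inr p, .inr q => fun z => (if q.2 = p.2 then P p.1 q.1 z else 0) -
      (if q.1 = p.1 then (fderiv ℝ a z (bs E p.2)).comp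
        (ContinuousLinearMap.smulRightL ℝ E (E →L[ℝ] ℝ) (bc q.2)) else 0)

open Classical in
/-- coefficients of order zero -/
def jQ (Q : I → I → E → ℝ) : I ⊕ (I × Fin (dm E)) → I ⊕ (I × Fin (dm E)) → E → ℝ
  | .inl i, .inl j => Q i j
  | .inl _, .inr _ => fun _ => 0
  | .inr p, .inl j => fun z => fderiv ℝ (Q p.1 j) z (bs E p.2)
  | .inr p, .inr q => fun z => if q.2 = p.2 then Q p.1 q.1 z else 0

omit [Fintype I] in
lemma contDiffAt_jP {P : I → I → E → (E →L[ℝ] ℝ) →L[ℝ] ℝ} {z : E} (ha : ContDiffAt ℝ ∞ a z)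
    (hP : ∀ i j, ContDiffAt ℝ ∞ (P i j) z) (x y) : ContDiffAt ℝ ∞ (jP a P x y) z := by
  rcases x with i | p <;> rcases y with j | q
  · exact hP i j
  · exact contDiffAt_const
  · exact ((hP p.1 j).fderiv_right (m := ∞) (by simp)).clm_apply contDiffAt_const
  · unfold jP
    refine ContDiffAt.sub ?_ ?_
    · split_ifs
      · exact hP _ _
      · exact contDiffAt_const
    · split_ifs
      · exact ((ha.fderiv_right (m := ∞) (by simp)).clm_apply contDiffAt_const).clm_comp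
          contDiffAt_const
      · exact contDiffAt_const

omit [Fintype I] in
lemma contDiffAt_jQ {Q : I → I → E → ℝ} {z : E}
    (hQ : ∀ i j, ContDiffAt ℝ ∞ (Q i j) z) (x y) : ContDiffAt ℝ ∞ (jQ Q x y) z := by
  rcases x with i | p <;> rcases y with j | q
  · exact hQ i j
  · exact contDiffAt_const
  · exact ((hQ p.1 j).fderiv_right (m := ∞) (by simp)).clm_apply contDiffAt_const
  · show ContDiffAt ℝ ∞ (fun z => if q.2 = p.2 then Q p.1 q.1 z else 0) z
    split_ifs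
    · exact hQ _ _
    · exact contDiffAt_const

/-- **the jet satisfies a system of the same type** -/
theorem Sys.jt {P : I → I → E → (E →L[ℝ] ℝ) →L[ℝ] ℝ} {Q : I → I → E → ℝ} {s : Set E}
    (hs : IsOpen s) (ha : ∀ z ∈ s, ContDiffAt ℝ ∞ a z)
    (hP : ∀ i j, ∀ z ∈ s, ContDiffAt ℝ ∞ (P i j) z)
    (hQ : ∀ i j, ∀ z ∈ s, ContDiffAt ℝ ∞ (Q i j) z) {u : I → E → ℝ}
    (hu : ∀ i, ∀ z ∈ s, ContDiffAt ℝ ∞ (u i) z) (h : Sys a P Q s u) :
    Sys a (jP a P) (jQ Q) s (jt u) := by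
  classical
  rintro (i | p) z hz
  · have := h i z hz
    simp only [Fintype.sum_sum_type, H104.jt, jP, jQ, zero_apply, Finset.sum_const_zero, add_zero,
      zero_mul]
    exact this
  · have h1 : Lo a (u p.1) =ᶠ[𝓝 z] fun y =>
        ∑ j, P p.1 j y (fderiv ℝ (u j) y) + ∑ j, Q p.1 j y * u j y := by
      filter_upwards [hs.mem_nhds hz] with y hy using h p.1 y hy
    have hud : ∀ j, DifferentiableAt ℝ (u j) z := fun j => (hu j z hz).differentiableAt (by simp)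
    have hud1 : ∀ j, DifferentiableAt ℝ (fderiv ℝ (u j)) z := fun j =>
      diff_fderiv ((hu j z hz).of_le two_le)
    have hPd : ∀ j, DifferentiableAt ℝ (P p.1 j) z := fun j =>
      (hP p.1 j z hz).differentiableAt (by simp)
    have hQd : ∀ j, DifferentiableAt ℝ (Q p.1 j) z := fun j =>
      (hQ p.1 j z hz).differentiableAt (by simp)
    have h2 : fderiv ℝ (Lo a (u p.1)) z (bs E p.2) =
        ∑ j, (P p.1 j z (fderiv ℝ (dd p.2 (u j)) z) +
          (fderiv ℝ (P p.1 j) z (bs E p.2)) (fderiv ℝ (u j) z)) +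
        ∑ j, (Q p.1 j z * dd p.2 (u j) z + fderiv ℝ (Q p.1 j) z (bs E p.2) * u j z) := by
      rw [h1.fderiv_eq]
      have h3 : HasFDerivAt (fun y => ∑ j, P p.1 j y (fderiv ℝ (u j) y) +
          ∑ j, Q p.1 j y * u j y) _ z :=
        (HasFDerivAt.fun_sum fun j _ => (hPd j).hasFDerivAt.clm_apply (hud1 j).hasFDerivAt).add
          (HasFDerivAt.fun_sum fun j _ => (hQd j).hasFDerivAt.mul (hud j).hasFDerivAt)
      rw [h3.fderiv]
      simp only [_root_.add_apply, _root_.sum_apply, ContinuousLinearMap.comp_apply,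
        ContinuousLinearMap.flip_apply, smul_apply, smul_eq_mul]
      congr 1
      · refine Finset.sum_congr rfl fun j _ => ?_
        rw [fderiv_dd ((hu j z hz).of_le two_le)]
      · refine Finset.sum_congr rfl fun j _ => ?_
        rw [dd]; ring
    show Lo a (dd p.2 (u p.1)) z = _
    rw [Lo_dd (ha z hz) (hu p.1 z hz), h2]
    simp only [Fintype.sum_sum_type, H104.jt, jP, jQ, Fintype.sum_prod_type]
    have e1 : ∀ j, ∑ t, ((if t = p.2 then P p.1 j z else 0) - (if j = p.1 then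
        (fderiv ℝ a z (bs E p.2)).comp
        (ContinuousLinearMap.smulRightL ℝ E (E →L[ℝ] ℝ) (bc t)) else 0))
          (fderiv ℝ (dd t (u j)) z) = P p.1 j z (fderiv ℝ (dd p.2 (u j)) z) -
          if j = p.1 then ∑ t, (fderiv ℝ a z (bs E p.2)) (tp (bc t) (fderiv ℝ (dd t (u j)) z))
          else 0 := by
      intro j
      simp only [_root_.sub_apply, Finset.sum_sub_distrib]
      congr 1
      · rw [Finset.sum_eq_single p.2]
        · simp
        · intro t _ ht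
          simp [ht]
        · simp
      · split_ifs
        · rfl
        · simp
    have e2 : ∀ j, ∑ t, (if t = p.2 then Q p.1 j z else 0) * dd t (u j) z =
        Q p.1 j z * dd p.2 (u j) z := by
      intro j
      rw [Finset.sum_eq_single p.2]
      · simp
      · intro t _ ht
        simp [ht]
      · simp
    simp only [e1, e2, Finset.sum_sub_distrib, Finset.sum_ite_eq', Finset.mem_univ, if_true,
      Finset.sum_add_distrib]
    ring

end Vale.Agent.P299.H104
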