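import Vale.Agent.P272.K.MP.Local
import Mathlib.Analysis.Calculus.BumpFunction.FiniteDimension

/-!
# P299, D2, tools: operators `L u = a (D² u)` without lower order terms
-/

open scoped ContDiff Topology
open Filter Metric Set

set_option maxSynthPendingDepth 3

noncomputable section

namespace Vale.Agent.P299.H104

variable {E : Type} [NormedAddCommGroup E] [NormedSpace ℝ E]

/-- the bilinear form `(v, v') ↦ ξ v * ζ v'` -/
abbrev tp (ξ ζ : E →L[ℝ] ℝ) : E →L[ℝ] E →L[ℝ] ℝ := ξ.smulRight ζ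

lemma tp_apply (ξ ζ : E →L[ℝ] ℝ) (v v' : E) : tp ξ ζ v v' = ξ v * ζ v' := by
  simp [tp]

lemma tp_add_left (ξ ξ' ζ : E →L[ℝ] ℝ) : tp (ξ + ξ') ζ = tp ξ ζ + tp ξ' ζ := by
  ext v v'; simp [add_mul]

lemma tp_add_right (ξ ζ ζ' : E →L[ℝ] ℝ) : tp ξ (ζ + ζ') = tp ξ ζ + tp ξ ζ' := by
  ext v v'; simp

lemma tp_smul_left (c : ℝ) (ξ ζ : E →L[ℝ] ℝ) : tp (c • ξ) ζ = c • tp ξ ζ := by
  ext v v'; simp [mul_assoc]

lemma tp_smul_right (c : ℝ) (ξ ζ : E →L[ℝ] ℝ) : tp ξ (c • ζ) = c • tp ξ ζ := by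
  ext v v'; simp; ring

lemma norm_tp_le (ξ ζ : E →L[ℝ] ℝ) : ‖tp ξ ζ‖ ≤ ‖ξ‖ * ‖ζ‖ :=
  (ContinuousLinearMap.norm_smulRight_apply ξ ζ).le

/-- derivative of the product -/
lemma fderiv_mul_eventually {f h : E → ℝ} {z : E} (hf : ContDiffAt ℝ 2 f z)
    (hh : ContDiffAt ℝ 2 h z) :
    fderiv ℝ (fun y => f y * h y) =ᶠ[𝓝 z] fun y => f y • fderiv ℝ h y + h y • fderiv ℝ f y := by
  filter_upwards [hf.eventually (by simp), hh.eventually (by simp)] with y hy hy'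
  exact fderiv_fun_mul (hy.differentiableAt (by norm_num)) (hy'.differentiableAt (by norm_num))

/-- second derivative of the product -/
lemma fderiv2_mul {f h : E → ℝ} {z : E} (hf : ContDiffAt ℝ 2 f z) (hh : ContDiffAt ℝ 2 h z) :
    fderiv ℝ (fderiv ℝ (fun y => f y * h y)) z =
      f z • fderiv ℝ (fderiv ℝ h) z + h z • fderiv ℝ (fderiv ℝ f) z +
        (tp (fderiv ℝ f z) (fderiv ℝ h z) + tp (fderiv ℝ h z) (fderiv ℝ f z)) := by
  rw [(fderiv_mul_eventually hf hh).fderiv_eq]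
  have hf1 := hf.differentiableAt (by norm_num)
  have hh1 := hh.differentiableAt (by norm_num)
  have hf2 : DifferentiableAt ℝ (fderiv ℝ f) z :=
    (hf.fderiv_right (m := 1) (by norm_num)).differentiableAt (by norm_num)
  have hh2 : DifferentiableAt ℝ (fderiv ℝ h) z :=
    (hh.fderiv_right (m := 1) (by norm_num)).differentiableAt (by norm_num)
  refine ((hf1.hasFDerivAt.smul hh2.hasFDerivAt).add
    (hh1.hasFDerivAt.smul hf2.hasFDerivAt)).fderiv.trans ?_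
  rw [tp, tp]
  abel

/-- second derivative of a sum -/
lemma fderiv2_add {f h : E → ℝ} {z : E} (hf : ContDiffAt ℝ 2 f z) (hh : ContDiffAt ℝ 2 h z) :
    fderiv ℝ (fderiv ℝ (fun y => f y + h y)) z =
      fderiv ℝ (fderiv ℝ f) z + fderiv ℝ (fderiv ℝ h) z := by
  have h1 : fderiv ℝ (fun y => f y + h y) =ᶠ[𝓝 z] fun y => fderiv ℝ f y + fderiv ℝ h y := by
    filter_upwards [hf.eventually (by simp), hh.eventually (by simp)] with y hy hy'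
    exact fderiv_fun_add (hy.differentiableAt (by norm_num)) (hy'.differentiableAt (by norm_num))
  rw [h1.fderiv_eq, fderiv_fun_add
    ((hf.fderiv_right (m := 1) (by norm_num)).differentiableAt (by norm_num))
    ((hh.fderiv_right (m := 1) (by norm_num)).differentiableAt (by norm_num))]

lemma fderiv2_sum {ι : Type*} (s : Finset ι) {f : ι → E → ℝ} {z : E}
    (hf : ∀ i ∈ s, ContDiffAt ℝ 2 (f i) z) :
    fderiv ℝ (fderiv ℝ (fun y => ∑ i ∈ s, f i y)) z = ∑ i ∈ s, fderiv ℝ (fderiv ℝ (f i)) z := by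
  classical
  induction s using Finset.induction_on with
  | empty =>
    have : (fun y : E => ∑ i ∈ (∅ : Finset ι), f i y) = fun _ => 0 := by ext; simp
    rw [this]; simp
  | insert i s hi ih =>
    have e : (fun y : E => ∑ j ∈ insert i s, f j y) = fun y => f i y + ∑ j ∈ s, f j y := by
      ext y; rw [Finset.sum_insert hi]
    rw [e, fderiv2_add (hf i (Finset.mem_insert_self _ _))
      (ContDiffAt.sum fun j hj => hf j (Finset.mem_insert_of_mem hj)),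
      ih fun j hj => hf j (Finset.mem_insert_of_mem hj), Finset.sum_insert hi]

lemma fderiv2_const_mul {f : E → ℝ} {z : E} (hf : ContDiffAt ℝ 2 f z) (c : ℝ) :
    fderiv ℝ (fderiv ℝ (fun y => c * f y)) z = c • fderiv ℝ (fderiv ℝ f) z := by
  rw [fderiv2_mul contDiffAt_const hf]
  have h1 : fderiv ℝ (fun _ : E => c) = fun _ => 0 := by ext; simp
  rw [h1]
  ext v v'
  simp

/-! ## The operator -/

/-- `L u = a (D² u)` -/
def Lo (a : E → (E →L[ℝ] E →L[ℝ] ℝ) →L[ℝ] ℝ) (u : E → ℝ) (z : E) : ℝ :=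
  a z (fderiv ℝ (fderiv ℝ u) z)

/-- symmetric gradient product -/
def Gam (a : (E →L[ℝ] E →L[ℝ] ℝ) →L[ℝ] ℝ) (ξ ζ : E →L[ℝ] ℝ) : ℝ := a (tp ξ ζ) + a (tp ζ ξ)

variable {a : E → (E →L[ℝ] E →L[ℝ] ℝ) →L[ℝ] ℝ}

lemma Lo_mul {f h : E → ℝ} {z : E} (hf : ContDiffAt ℝ 2 f z) (hh : ContDiffAt ℝ 2 h z) :
    Lo a (fun y => f y * h y) z =
      f z * Lo a h z + h z * Lo a f z + Gam (a z) (fderiv ℝ f z) (fderiv ℝ h z) := by
  unfold Lo Gam
  rw [fderiv2_mul hf hh]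
  simp only [map_add, map_smul, smul_eq_mul]

lemma Lo_add {f h : E → ℝ} {z : E} (hf : ContDiffAt ℝ 2 f z) (hh : ContDiffAt ℝ 2 h z) :
    Lo a (fun y => f y + h y) z = Lo a f z + Lo a h z := by
  unfold Lo; rw [fderiv2_add hf hh, map_add]

lemma Lo_sum {ι : Type*} (s : Finset ι) {f : ι → E → ℝ} {z : E}
    (hf : ∀ i ∈ s, ContDiffAt ℝ 2 (f i) z) :
    Lo a (fun y => ∑ i ∈ s, f i y) z = ∑ i ∈ s, Lo a (f i) z := by
  unfold Lo; rw [fderiv2_sum s hf, map_sum]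

lemma Lo_const_mul {f : E → ℝ} {z : E} (hf : ContDiffAt ℝ 2 f z) (c : ℝ) :
    Lo a (fun y => c * f y) z = c * Lo a f z := by
  unfold Lo; rw [fderiv2_const_mul hf, map_smul, smul_eq_mul]

lemma Lo_sq {f : E → ℝ} {z : E} (hf : ContDiffAt ℝ 2 f z) :
    Lo a (fun y => f y ^ 2) z =
      2 * (f z * Lo a f z) + 2 * a z (tp (fderiv ℝ f z) (fderiv ℝ f z)) := by
  have e : (fun y => f y ^ 2) = fun y => f y * f y := by ext y; ring
  rw [e, Lo_mul hf hf, Gam]; ring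

lemma Gam_comm (a : (E →L[ℝ] E →L[ℝ] ℝ) →L[ℝ] ℝ) (ξ ζ : E →L[ℝ] ℝ) :
    Gam a ξ ζ = Gam a ζ ξ := by unfold Gam; ring

lemma Gam_add_right (a : (E →L[ℝ] E →L[ℝ] ℝ) →L[ℝ] ℝ) (ξ ζ ζ' : E →L[ℝ] ℝ) :
    Gam a ξ (ζ + ζ') = Gam a ξ ζ + Gam a ξ ζ' := by
  unfold Gam; rw [tp_add_right, tp_add_left, map_add, map_add]; ring

lemma Gam_smul_right (a : (E →L[ℝ] E →L[ℝ] ℝ) →L[ℝ] ℝ) (c : ℝ) (ξ ζ : E →L[ℝ] ℝ) :
    Gam a ξ (c • ζ) = c * Gam a ξ ζ := by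
  unfold Gam; rw [tp_smul_right, tp_smul_left, map_smul, map_smul, smul_eq_mul, smul_eq_mul]; ring

lemma Gam_smul_left (a : (E →L[ℝ] E →L[ℝ] ℝ) →L[ℝ] ℝ) (c : ℝ) (ξ ζ : E →L[ℝ] ℝ) :
    Gam a (c • ξ) ζ = c * Gam a ξ ζ := by
  rw [Gam_comm, Gam_smul_right, Gam_comm]

lemma Gam_sum_right {ι : Type*} (a : (E →L[ℝ] E →L[ℝ] ℝ) →L[ℝ] ℝ) (ξ : E →L[ℝ] ℝ)
    (s : Finset ι) (ζ : ι → E →L[ℝ] ℝ) : Gam a ξ (∑ i ∈ s, ζ i) = ∑ i ∈ s, Gam a ξ (ζ i) := by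
  classical
  induction s using Finset.induction_on with
  | empty =>
    unfold Gam
    have h1 : tp ξ (0 : E →L[ℝ] ℝ) = 0 := by ext; simp
    have h2 : tp (0 : E →L[ℝ] ℝ) ξ = 0 := by ext; simp
    simp [h1, h2]
  | insert i s hi ih => rw [Finset.sum_insert hi, Finset.sum_insert hi, Gam_add_right, ih]

lemma abs_Gam_le (a : (E →L[ℝ] E →L[ℝ] ℝ) →L[ℝ] ℝ) (ξ ζ : E →L[ℝ] ℝ) :
    |Gam a ξ ζ| ≤ 2 * ‖a‖ * ‖ξ‖ * ‖ζ‖ := by
  have h1 : |a (tp ξ ζ)| ≤ ‖a‖ * (‖ξ‖ * ‖ζ‖) :=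
    (a.le_opNorm _).trans (mul_le_mul_of_nonneg_left (norm_tp_le ξ ζ) (norm_nonneg _))
  have h2 : |a (tp ζ ξ)| ≤ ‖a‖ * (‖ζ‖ * ‖ξ‖) :=
    (a.le_opNorm _).trans (mul_le_mul_of_nonneg_left (norm_tp_le ζ ξ) (norm_nonneg _))
  unfold Gam
  calc |a (tp ξ ζ) + a (tp ζ ξ)| ≤ |a (tp ξ ζ)| + |a (tp ζ ξ)| := abs_add_le _ _
    _ ≤ ‖a‖ * (‖ξ‖ * ‖ζ‖) + ‖a‖ * (‖ζ‖ * ‖ξ‖) := add_le_add h1 h2
    _ = _ := by ring

section fin
variable [FiniteDimensional ℝ E]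

/-- **maximum principle** at an interior local maximum -/
lemma Lo_nonpos_of_max {z : E} (ha : ∀ ξ : E →L[ℝ] ℝ, 0 ≤ a z (tp ξ ξ)) {v : E → ℝ}
    (h : IsLocalMax v z) (hv : ContDiffAt ℝ 2 v z) : Lo a v z ≤ 0 := by
  have := Vale.Agent.P272.K.MP.op_nonpos_of_max (a z) ha 0 h hv
  simpa [Lo] using this

/-- uniform ellipticity on a compact set -/
lemma exists_ell {K : Set E} (hK : IsCompact K) (hc : ContinuousOn a K)
    (hpos : ∀ z ∈ K, ∀ ξ : E →L[ℝ] ℝ, ξ ≠ 0 → 0 < a z (tp ξ ξ)) :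
    ∃ lam > 0, ∀ z ∈ K, ∀ ξ : E →L[ℝ] ℝ, lam * ‖ξ‖ ^ 2 ≤ a z (tp ξ ξ) := by
  have hS : IsCompact (sphere (0 : E →L[ℝ] ℝ) 1) := isCompact_sphere _ _
  have hKS := hK.prod hS
  have htp : Continuous fun ξ : E →L[ℝ] ℝ => tp ξ ξ := by
    have : (fun ξ : E →L[ℝ] ℝ => tp ξ ξ) =
        fun ξ => ContinuousLinearMap.smulRightL ℝ E (E →L[ℝ] ℝ) ξ ξ := by
      ext; rfl
    rw [this]
    fun_prop
  have hcont : ContinuousOn (fun p : E × (E →L[ℝ] ℝ) => a p.1 (tp p.2 p.2))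
      (K ×ˢ sphere (0 : E →L[ℝ] ℝ) 1) := by
    refine ContinuousOn.clm_apply (hc.comp continuousOn_fst fun p hp => hp.1) ?_
    exact (htp.comp continuous_snd).continuousOn
  rcases (K ×ˢ sphere (0 : E →L[ℝ] ℝ) 1).eq_empty_or_nonempty with he | hne
  · refine ⟨1, one_pos, fun z hz ξ => ?_⟩
    rcases eq_or_ne ξ 0 with rfl | hξ
    · have : tp (0 : E →L[ℝ] ℝ) 0 = 0 := by ext; simp
      simp [this]
    · exfalso
      have : (z, (‖ξ‖⁻¹ • ξ)) ∈ K ×ˢ sphere (0 : E →L[ℝ] ℝ) 1 := by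
        refine ⟨hz, ?_⟩
        simp [norm_smul, norm_ne_zero_iff.2 hξ]
      rw [he] at this
      exact this
  · obtain ⟨p, hp, hmin⟩ := hKS.exists_isMinOn hne hcont
    have hp0 : p.2 ≠ 0 := by
      intro h0
      have := hp.2
      rw [mem_sphere_zero_iff_norm, h0, norm_zero] at this
      exact zero_ne_one this
    refine ⟨a p.1 (tp p.2 p.2), hpos _ hp.1 _ hp0, fun z hz ξ => ?_⟩
    rcases eq_or_ne ξ 0 with rfl | hξ
    · have : tp (0 : E →L[ℝ] ℝ) 0 = 0 := by ext; simp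
      simp [this]
    · have hn : ‖ξ‖ ≠ 0 := norm_ne_zero_iff.2 hξ
      have h1 : (z, (‖ξ‖⁻¹ • ξ)) ∈ K ×ˢ sphere (0 : E →L[ℝ] ℝ) 1 := by
        refine ⟨hz, ?_⟩
        simp [norm_smul, hn]
      have h2 := hmin h1
      simp only [mem_ofPred_eq] at h2
      rw [tp_smul_left, tp_smul_right, map_smul, map_smul, smul_eq_mul, smul_eq_mul] at h2
      have h3 : ‖ξ‖ ^ 2 * (‖ξ‖⁻¹ * (‖ξ‖⁻¹ * a z (tp ξ ξ))) = a z (tp ξ ξ) := by
        field_simp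
      rw [← h3, mul_comm]
      exact mul_le_mul_of_nonneg_left h2 (by positivity)

omit [NormedSpace ℝ E] [FiniteDimensional ℝ E] in
/-- a bound for a continuous function on a compact set -/
lemma exists_bd {K : Set E} (hK : IsCompact K) {F : Type*} [NormedAddCommGroup F] {f : E → F}
    (hf : ContinuousOn f K) : ∃ C : ℝ, 0 ≤ C ∧ ∀ z ∈ K, ‖f z‖ ≤ C := by
  obtain ⟨C, hC⟩ := hK.exists_bound_of_continuousOn hf
  exact ⟨max C 0, le_max_right _ _, fun z hz => (hC z hz).trans (le_max_left _ _)⟩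

end fin

end Vale.Agent.P299.H104
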